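import Mathlib

/-!
Inclusion modulo finite sets and balanced finite modifications.
-/

namespace Vale.Agent.P068

open Set

variable {α : Type*}

/-- Inclusion modulo a finite set. -/
def AlmostLE (S T : Set α) : Prop := (S \ T).Finite

theorem AlmostLE.refl (S : Set α) : AlmostLE S S := by simp [AlmostLE]

theorem AlmostLE.of_subset {S T : Set α} (h : S ⊆ T) : AlmostLE S T := by
  simp [AlmostLE, sdiff_eq_empty.2 h]

theorem AlmostLE.trans {S T U : Set α} (h : AlmostLE S T) (h' : AlmostLE T U) :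
    AlmostLE S U := by
  refine (h.union h').subset ?_
  intro x hx
  by_cases hT : x ∈ T
  · exact Or.inr ⟨hT, hx.2⟩
  · exact Or.inl ⟨hx.1, hT⟩

/-- One of the two cells of a block. -/
def side (f : Bool) (S : Set (Bool × ℕ)) : Set ℕ := {n | (f, n) ∈ S}

theorem side_mono {S T : Set (Bool × ℕ)} (h : S ⊆ T) (f : Bool) : side f S ⊆ side f T :=
  fun _ hn => h hn

theorem almostLE_iff_side {S T : Set (Bool × ℕ)} :
    AlmostLE S T ↔ ∀ f, AlmostLE (side f S) (side f T) := by
  constructor
  · intro h f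
    exact (Set.Finite.preimage ((Prod.mk_right_injective f).injOn) h : (Prod.mk f ⁻¹' (S \ T)).Finite)
  · intro h
    refine ((finite_iUnion fun f => (h f).image (Prod.mk f))).subset ?_
    rintro ⟨f, n⟩ hx
    exact mem_iUnion.2 ⟨f, n, hx, rfl⟩

/-- `T` arises from `S` by a balanced finite modification. -/
def Bal (S T : Set α) : Prop :=
  ∃ K : Set α, K.Finite ∧ S \ K = T \ K ∧ (S ∩ K).ncard = (T ∩ K).ncard

theorem Bal.refl (S : Set α) : Bal S S := ⟨∅, finite_empty, rfl, rfl⟩

theorem Bal.symm {S T : Set α} (h : Bal S T) : Bal T S := by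
  obtain ⟨K, hK, h1, h2⟩ := h
  exact ⟨K, hK, h1.symm, h2.symm⟩

theorem ncard_inter_union {S K L : Set α} (hK : K.Finite) (hL : L.Finite) :
    (S ∩ (K ∪ L)).ncard = (S ∩ K).ncard + ((S \ K) ∩ L).ncard := by
  rw [← ncard_union_eq ?_ (hK.inter_of_right S) (hL.inter_of_right _)]
  · congr 1
    ext x
    simp only [mem_inter_iff, mem_union, mem_sdiff]
    tauto
  · exact disjoint_left.2 fun x hx hx' => hx'.1.2 hx.2

theorem Bal.trans {S T U : Set α} (h : Bal S T) (h' : Bal T U) : Bal S U := by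
  obtain ⟨K, hK, h1, h2⟩ := h
  obtain ⟨L, hL, h3, h4⟩ := h'
  refine ⟨K ∪ L, hK.union hL, ?_, ?_⟩
  · rw [← sdiff_sdiff, h1, sdiff_sdiff, union_comm, ← sdiff_sdiff, h3, sdiff_sdiff]
  · rw [ncard_inter_union hK hL, h2, h1, ← ncard_inter_union hK hL, union_comm,
      ncard_inter_union hL hK, h4, h3, ← ncard_inter_union hL hK]

theorem Bal.almostLE {S T : Set α} (h : Bal S T) : AlmostLE S T := by
  obtain ⟨K, hK, h1, -⟩ := h
  refine hK.subset fun x hx => ?_
  by_contra hxK
  exact hx.2 (h1 ▸ ⟨hx.1, hxK⟩ : x ∈ T \ K).1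

theorem Bal.eq_of_subset {S T : Set α} (h : Bal S T) (hs : S ⊆ T) : S = T := by
  obtain ⟨K, hK, h1, h2⟩ := h
  have h3 : S ∩ K = T ∩ K :=
    eq_of_subset_of_ncard_le (inter_subset_inter_left _ hs) h2.ge (hK.inter_of_right T)
  rw [← inter_union_sdiff S K, ← inter_union_sdiff T K, h1, h3]

/-- Exchanging one element for another is balanced. -/
theorem bal_swap {S : Set α} {x y : α} (hx : x ∉ S) (hy : y ∈ S) :
    Bal S (insert x (S \ {y})) := by
  have hxy : x ≠ y := fun h => hx (h ▸ hy)
  refine ⟨{x, y}, toFinite _, ?_, ?_⟩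
  · ext z
    simp only [mem_sdiff, mem_insert_iff, mem_singleton_iff]
    tauto
  · have e1 : S ∩ {x, y} = {y} := by
      ext z
      simp only [mem_inter_iff, mem_insert_iff, mem_singleton_iff]
      exact ⟨fun h => h.2.resolve_left fun e => hx (e ▸ h.1), fun h => ⟨h ▸ hy, Or.inr h⟩⟩
    have e2 : insert x (S \ {y}) ∩ {x, y} = {x} := by
      ext z
      simp only [mem_inter_iff, mem_insert_iff, mem_sdiff, mem_singleton_iff]
      tauto
    rw [e1, e2, ncard_singleton, ncard_singleton]

/-- Taking `n` elements, preferably from `A`. -/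
theorem exists_take (A G : Set α) (hG : G.Finite) {n : ℕ} (hn : n ≤ G.ncard) :
    ∃ D, D ⊆ A ∪ G ∧ D.Finite ∧ D.ncard = n ∧ (D ⊆ A ∨ A ⊂ D) := by
  rcases Nat.eq_zero_or_pos n with rfl | hpos
  · exact ⟨∅, empty_subset _, finite_empty, ncard_empty _, Or.inl (empty_subset _)⟩
  by_cases h : A.Infinite ∨ n ≤ A.ncard
  · obtain ⟨D, hD, hcard⟩ : ∃ D ⊆ A, D.ncard = n := by
      rcases h with h | h
      · obtain ⟨D, hD, _, hcard⟩ := h.exists_subset_ncard_eq n
        exact ⟨D, hD, hcard⟩
      · exact exists_subset_card_eq h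
    exact ⟨D, hD.trans subset_union_left, finite_of_ncard_pos (hcard ▸ hpos), hcard, Or.inl hD⟩
  · rw [not_or, Set.not_infinite, not_le] at h
    obtain ⟨D, hAD, hD, hcard⟩ : ∃ D, A ⊆ D ∧ D ⊆ A ∪ G ∧ D.ncard = n :=
      exists_subsuperset_card_eq subset_union_left h.2.le
        (hn.trans (ncard_le_ncard subset_union_right (h.1.union hG)))
    refine ⟨D, hD, (h.1.union hG).subset hD, hcard, Or.inr ⟨hAD, fun h' => ?_⟩⟩
    have := ncard_le_ncard h' h.1
    omega

/-- A set lying between `I` and `X` up to finitely many elements has a balanced modification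
which is exactly between them, strictly below `I`, or strictly above `X`. -/
theorem exists_adjust {R I X : Set α} (hIX : I ⊆ X) (hR : AlmostLE R X) (hI : AlmostLE I R) :
    ∃ B, Bal R B ∧ ((I ⊆ B ∧ B ⊆ X) ∨ B ⊂ I ∨ X ⊂ B) := by
  set K := (I \ R) ∪ (R \ X) with hKdef
  have hK : K.Finite := hI.union hR
  set R' := (R ∪ I) ∩ X with hR'def
  have hd : R \ K = R' \ K := by
    ext x
    have := @hIX x
    simp only [hKdef, hR'def, mem_sdiff, mem_union, mem_inter_iff]
    tauto
  have hR'I : I ⊆ R' := fun x hx => ⟨Or.inr hx, hIX hx⟩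
  have hR'X : R' ⊆ X := inter_subset_right
  rcases le_total (R ∩ K).ncard (R' ∩ K).ncard with hab | hab
  · obtain ⟨D, hD, hDfin, hcard, hout⟩ := exists_take (R' \ I) (R' ∩ K) (hK.inter_of_right _)
      (n := (R' ∩ K).ncard - (R ∩ K).ncard) (Nat.sub_le _ _)
    have hDR : D ⊆ R' := hD.trans (union_subset sdiff_subset inter_subset_left)
    refine ⟨R' \ D, ⟨K ∪ D, hK.union hDfin, ?_, ?_⟩, ?_⟩
    · rw [← sdiff_sdiff, hd]
      ext x
      simp only [mem_sdiff, mem_union]
      tauto
    · have e : (R' \ D) ∩ (K ∪ D) = (R' ∩ (K ∪ D)) \ D := by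
        ext x
        simp only [mem_sdiff, mem_inter_iff]
        tauto
      rw [e, ncard_sdiff (subset_inter hDR subset_union_right) hDfin, hcard]
      have h1 := ncard_inter_union (S := R) hK hDfin
      have h2 := ncard_inter_union (S := R') hK hDfin
      rw [hd] at h1
      omega
    · rcases hout with ho | ho
      · exact Or.inl ⟨fun x hx => ⟨hR'I hx, fun h => (ho h).2 hx⟩, sdiff_subset.trans hR'X⟩
      · refine Or.inr (Or.inl ?_)
        obtain ⟨x, hxD, hx⟩ := exists_of_ssubset ho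
        have hxI : x ∈ I := by
          by_contra h
          exact hx ⟨hDR hxD, h⟩
        refine ssubset_iff_subset_ne.2 ⟨fun y hy => ?_, fun e => ?_⟩
        · by_contra h
          exact hy.2 (ho.1 ⟨hy.1, h⟩)
        · exact (e ▸ hxI : x ∈ R' \ D).2 hxD
  · have hn : (R ∩ K).ncard - (R' ∩ K).ncard ≤ (K \ R').ncard := by
      have h1 := ncard_le_ncard (inter_subset_right : R ∩ K ⊆ K) hK
      have h2 := ncard_inter_add_ncard_sdiff_eq_ncard K R' hK
      rw [inter_comm] at h2
      omega
    obtain ⟨D, hD, hDfin, hcard, hout⟩ := exists_take (X \ R') (K \ R') hK.sdiff hn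
    have hDR : Disjoint R' D := disjoint_left.2 fun x hx hx' => by
      rcases hD hx' with h | h <;> exact h.2 hx
    refine ⟨R' ∪ D, ⟨K ∪ D, hK.union hDfin, ?_, ?_⟩, ?_⟩
    · rw [← sdiff_sdiff, hd]
      ext x
      simp only [mem_sdiff, mem_union]
      tauto
    · have e : (R' ∪ D) ∩ (K ∪ D) = (R' ∩ (K ∪ D)) ∪ D := by
        ext x
        simp only [mem_union, mem_inter_iff]
        tauto
      have e2 : (R' \ K) ∩ D = ∅ := by
        ext x
        have h : x ∈ R' → x ∉ D := fun hx => disjoint_left.1 hDR hx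
        simp only [mem_inter_iff, mem_sdiff, mem_empty_iff_false]
        tauto
      rw [e, ncard_union_eq (hDR.mono_left inter_subset_left) ((hK.union hDfin).inter_of_right _)
        hDfin, hcard]
      have h1 := ncard_inter_union (S := R) hK hDfin
      have h2 := ncard_inter_union (S := R') hK hDfin
      rw [hd, e2, ncard_empty] at h1
      rw [e2, ncard_empty] at h2
      omega
    · rcases hout with ho | ho
      · exact Or.inl ⟨hR'I.trans subset_union_left, union_subset hR'X (ho.trans sdiff_subset)⟩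
      · refine Or.inr (Or.inr ?_)
        obtain ⟨x, hxD, hx⟩ := exists_of_ssubset ho
        refine ssubset_iff_subset_ne.2 ⟨fun y hy => ?_, fun e => ?_⟩
        · by_cases h : y ∈ R'
          · exact Or.inl h
          · exact Or.inr (ho.1 ⟨hy, h⟩)
        · refine hx ⟨e ▸ Or.inr hxD, fun h => ?_⟩
          exact disjoint_left.1 hDR h hxD

end Vale.Agent.P068
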