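import Vale.Agent.P068.Recursion

/-!
Matroids built blockwise from a graded block structure.
-/

namespace Vale.Agent.P068

open Set

variable (D : BlockData)

/-- A block base: a balanced modification of a representative. -/
def BlockData.IsBlockBase (B : Set (Bool × ℕ)) : Prop := ∃ R ∈ D.reps, Bal R B

/-- A block independent set. -/
def BlockData.BlockIndep (S : Set (Bool × ℕ)) : Prop := ∃ B, D.IsBlockBase B ∧ S ⊆ B

variable {D}

theorem BlockData.IsBlockBase.base {B : Set (Bool × ℕ)} (h : D.IsBlockBase B) :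
    Base (D.val (side false B)) (D.val (side true B)) := by
  obtain ⟨R, hR, hRB⟩ := h
  have key : ∀ f, D.val (side f R) = D.val (side f B) := fun f =>
    (D.mono _ _ (almostLE_iff_side.1 hRB.almostLE f)).antisymm
      (D.mono _ _ (almostLE_iff_side.1 hRB.symm.almostLE f))
  rw [← key, ← key]
  exact D.base R hR

theorem BlockData.IsBlockBase.eq_of_subset {B B' : Set (Bool × ℕ)} (h : D.IsBlockBase B)
    (h' : D.IsBlockBase B') (hs : B ⊆ B') : B = B' := by
  obtain ⟨R, hR, hRB⟩ := h
  obtain ⟨R', hR', hRB'⟩ := h'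
  obtain rfl : R = R' := D.anti R hR R' hR'
    (hRB.almostLE.trans ((AlmostLE.of_subset hs).trans hRB'.symm.almostLE))
  exact (hRB.symm.trans hRB').eq_of_subset hs

theorem BlockData.IsBlockBase.indep {B : Set (Bool × ℕ)} (h : D.IsBlockBase B) :
    D.BlockIndep B := ⟨B, h, Subset.rfl⟩

theorem BlockData.BlockIndep.subset {S T : Set (Bool × ℕ)} (h : D.BlockIndep T) (hs : S ⊆ T) :
    D.BlockIndep S := by
  obtain ⟨B, hB, hTB⟩ := h
  exact ⟨B, hB, hs.trans hTB⟩

/-- Independent sets that are not bases can be enlarged by any element. -/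
theorem BlockData.BlockIndep.insert_of_not_base {S : Set (Bool × ℕ)} (h : D.BlockIndep S)
    (hS : ¬ D.IsBlockBase S) (x : Bool × ℕ) : D.BlockIndep (insert x S) := by
  obtain ⟨B, hB, hSB⟩ := h
  by_cases hx : x ∈ B
  · exact ⟨B, hB, insert_subset hx hSB⟩
  obtain ⟨y, hyB, hyS⟩ := exists_of_ssubset
    (hSB.ssubset_of_ne fun e => hS (e ▸ hB))
  obtain ⟨R, hR, hRB⟩ := hB
  refine ⟨insert x (B \ {y}), ⟨R, hR, hRB.trans (bal_swap hx hyB)⟩, insert_subset_insert ?_⟩
  exact fun z hz => ⟨hSB hz, fun e => hyS ((mem_singleton_iff.1 e) ▸ hz)⟩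

/-- The empty set is independent in a block. -/
theorem BlockData.blockIndep_empty : D.BlockIndep ∅ := by
  rcases D.bridge ∅ Set.univ (empty_subset _) with h | ⟨R, hR, -⟩
  · have : side false (∅ : Set (Bool × ℕ)) = ∅ := rfl
    simp [this, D.val_empty, Up] at h
  · exact ⟨R, ⟨R, hR, .refl _⟩, empty_subset _⟩

/-- The maximality axiom in a block. -/
theorem BlockData.exists_maximal {I X : Set (Bool × ℕ)} (hI : D.BlockIndep I) (hIX : I ⊆ X) :
    ∃ J, I ⊆ J ∧ D.BlockIndep J ∧ J ⊆ X ∧
      ∀ K, D.BlockIndep K → J ⊆ K → K ⊆ X → K ⊆ J := by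
  obtain ⟨C, hC, hIC⟩ := hI
  rcases D.bridge I X hIX with hup | ⟨R, hR, h⟩
  · exact absurd hC.base (hup.mono (D.mono _ _ (.of_subset (side_mono hIC false)))
      (D.mono _ _ (.of_subset (side_mono hIC true)))).not_base
  have finish : (∃ B, Bal R B ∧ ((I ⊆ B ∧ B ⊆ X) ∨ B ⊂ I ∨ X ⊂ B)) →
      ∃ J, I ⊆ J ∧ D.BlockIndep J ∧ J ⊆ X ∧
        ∀ K, D.BlockIndep K → J ⊆ K → K ⊆ X → K ⊆ J := by
    rintro ⟨B, hRB, hB⟩
    have hB' : D.IsBlockBase B := ⟨R, hR, hRB⟩
    rcases hB with ⟨h1, h2⟩ | hlt | hlt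
    · refine ⟨B, h1, hB'.indep, h2, fun K hK hBK _ => ?_⟩
      obtain ⟨B', hB'', hKB'⟩ := hK
      exact hKB'.trans (hB'.eq_of_subset hB'' (hBK.trans hKB')).ge
    · have := hB'.eq_of_subset hC (hlt.subset.trans hIC)
      exact absurd (this ▸ hlt) (fun h => h.not_subset hIC)
    · exact ⟨X, hIX, ⟨B, hB', hlt.subset⟩, Subset.rfl, fun K _ _ hKX => hKX⟩
  rcases h with hRI | hXR | ⟨hIR, hRX⟩
  · refine finish ?_
    by_cases hIR : AlmostLE I R
    · exact exists_adjust hIX (hRI.trans (.of_subset hIX)) hIR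
    · obtain ⟨B, hRB, hB⟩ := exists_adjust (inter_subset_right : R ∩ I ⊆ I) hRI
        (.of_subset inter_subset_left)
      refine ⟨B, hRB, ?_⟩
      rcases hB with ⟨-, hBI⟩ | hlt | hlt
      · rcases eq_or_ssubset_of_subset hBI with rfl | hs
        · exact Or.inl ⟨Subset.rfl, hIX⟩
        · exact Or.inr (Or.inl hs)
      · exact Or.inr (Or.inl (hlt.trans_subset inter_subset_right))
      · exact absurd ((AlmostLE.of_subset hlt.subset).trans hRB.symm.almostLE) hIR
  · refine finish ?_
    by_cases hRX : AlmostLE R X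
    · exact exists_adjust hIX hRX ((AlmostLE.of_subset hIX).trans hXR)
    · obtain ⟨B, hRB, hB⟩ := exists_adjust (subset_union_left : X ⊆ X ∪ R)
        (.of_subset subset_union_right) hXR
      refine ⟨B, hRB, ?_⟩
      rcases hB with ⟨hXB, -⟩ | hlt | hlt
      · rcases eq_or_ssubset_of_subset hXB with rfl | hs
        · exact Or.inl ⟨hIX, Subset.rfl⟩
        · exact Or.inr (Or.inr hs)
      · exact absurd (hRB.almostLE.trans (.of_subset hlt.subset)) hRX
      · exact Or.inr (Or.inr (subset_union_left.trans_ssubset hlt))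
  · exact finish (exists_adjust hIX hRX hIR)

variable {ι γ : Type*} (e : ι × Bool ≃ γ)

/-- The trace of a set on a block. -/
def slice (i : ι) (S : Set (γ × ℕ)) : Set (Bool × ℕ) := {x | (e (i, x.1), x.2) ∈ S}

/-- The set with prescribed block traces. -/
def glue (s : ι → Set (Bool × ℕ)) : Set (γ × ℕ) :=
  {x | ((e.symm x.1).2, x.2) ∈ s (e.symm x.1).1}

theorem slice_glue (s : ι → Set (Bool × ℕ)) (i : ι) : slice e i (glue e s) = s i := by
  ext x
  simp [slice, glue]

theorem subset_iff_slice {S T : Set (γ × ℕ)} : S ⊆ T ↔ ∀ i, slice e i S ⊆ slice e i T := by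
  refine ⟨fun h i x hx => h hx, fun h x hx => ?_⟩
  have := @h (e.symm x.1).1 ((e.symm x.1).2, x.2)
  simpa [slice, hx] using this

theorem slice_insert_self (i : ι) (y : Bool × ℕ) (S : Set (γ × ℕ)) :
    slice e i (insert (e (i, y.1), y.2) S) = insert y (slice e i S) := by
  ext x
  simp [slice, Prod.ext_iff]

theorem slice_insert_ne {i j : ι} (h : j ≠ i) (y : Bool × ℕ) (S : Set (γ × ℕ)) :
    slice e j (insert (e (i, y.1), y.2) S) = slice e j S := by
  ext x
  simp [slice, h]

variable (D)

/-- Independence of all block traces. -/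
def BlockData.SumIndep (S : Set (γ × ℕ)) : Prop := ∀ i, D.BlockIndep (slice e i S)

variable {D} {e}

theorem BlockData.SumIndep.insert {S : Set (γ × ℕ)} (h : D.SumIndep e S) {i : ι} {y : Bool × ℕ}
    (hy : D.BlockIndep (Insert.insert y (slice e i S))) :
    D.SumIndep e (Insert.insert (e (i, y.1), y.2) S) := by
  intro j
  by_cases hj : j = i
  · subst hj
    rwa [slice_insert_self]
  · rw [slice_insert_ne e hj]
    exact h j

theorem BlockData.isBlockBase_of_maximal {S : Set (γ × ℕ)} (h : Maximal (D.SumIndep e) S) (i : ι) :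
    D.IsBlockBase (slice e i S) := by
  by_contra hS
  obtain ⟨B, hB, hSB⟩ := h.prop i
  obtain ⟨y, -, hy⟩ := exists_of_ssubset (hSB.ssubset_of_ne fun e' => hS (e' ▸ hB))
  exact hy (h.2 (h.prop.insert ((h.prop i).insert_of_not_base hS y)) (subset_insert _ _)
    (mem_insert _ _))

theorem BlockData.maximal_of_isBlockBase {S : Set (γ × ℕ)}
    (h : ∀ i, D.IsBlockBase (slice e i S)) : Maximal (D.SumIndep e) S := by
  refine ⟨fun i => (h i).indep, fun T hT hST => ?_⟩
  refine (subset_iff_slice e).2 fun i => ?_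
  obtain ⟨B, hB, hTB⟩ := hT i
  exact hTB.trans ((h i).eq_of_subset hB (((subset_iff_slice e).1 hST i).trans hTB)).ge

variable (D) (e)

/-- The sum over all blocks of the graded block matroid. -/
def BlockData.matroid : Matroid (γ × ℕ) :=
  IndepMatroid.matroid
  { E := Set.univ
    Indep := D.SumIndep e
    indep_empty := fun i => D.blockIndep_empty.subset (fun _ hx => hx)
    indep_subset := fun _ _ hJ hIJ i => (hJ i).subset ((subset_iff_slice e).1 hIJ i)
    indep_aug := by
      intro I B hI hnm hB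
      obtain ⟨i, hi⟩ : ∃ i, ¬ D.IsBlockBase (slice e i I) := by
        by_contra h
        push Not at h
        exact hnm (BlockData.maximal_of_isBlockBase h)
      have hns : ¬ slice e i B ⊆ slice e i I := by
        intro hs
        obtain ⟨C, hC, hIC⟩ := hI i
        have h1 := (BlockData.isBlockBase_of_maximal hB i).eq_of_subset hC (hs.trans hIC)
        exact hi ((hIC.antisymm (h1 ▸ hs)).symm ▸ hC)
      obtain ⟨y, hyB, hyI⟩ := not_subset.1 hns
      exact ⟨(e (i, y.1), y.2), ⟨hyB, hyI⟩, hI.insert ((hI i).insert_of_not_base hi y)⟩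
    indep_maximal := by
      intro X _ I hI hIX
      choose J hIJ hJ hJX hmax using fun i =>
        D.exists_maximal (hI i) ((subset_iff_slice e).1 hIX i)
      refine ⟨glue e J, (subset_iff_slice e).2 fun i => (slice_glue e J i).symm ▸ hIJ i,
        ⟨fun i => (slice_glue e J i).symm ▸ hJ i,
          (subset_iff_slice e).2 fun i => (slice_glue e J i).symm ▸ hJX i⟩, ?_⟩
      rintro K ⟨hK, hKX⟩ hJK
      refine (subset_iff_slice e).2 fun i => ?_
      have h1 := (subset_iff_slice e).1 hJK i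
      rw [slice_glue] at h1 ⊢
      exact hmax i _ (hK i) h1 ((subset_iff_slice e).1 hKX i)
    subset_ground := fun _ _ => subset_univ _ }

variable {D} {e}

theorem BlockData.matroid_indep {S : Set (γ × ℕ)} :
    (D.matroid e).Indep S ↔ D.SumIndep e S := Iff.rfl

/-- Only saturated blocks gain elements in the closure of an independent set. -/
theorem BlockData.mem_closure {S : Set (γ × ℕ)} (hS : D.SumIndep e S) {i : ι} {y : Bool × ℕ}
    (h : (e (i, y.1), y.2) ∈ (D.matroid e).closure S) :
    (e (i, y.1), y.2) ∈ S ∨ D.IsBlockBase (slice e i S) := by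
  rw [(BlockData.matroid_indep.2 hS).mem_closure_iff] at h
  rcases h with h | h
  · right
    by_contra hb
    exact h.not_indep (BlockData.matroid_indep.2 (hS.insert ((hS i).insert_of_not_base hb y)))
  · exact Or.inl h

end Vale.Agent.P068
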