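import Vale.Agent.P068.Block

/-!
Two matroids built from a graded block structure violate intersection, and the pair formed
with the dual has no packing/covering partition.
-/

namespace Vale.Agent.P068

open Set

/-- The subset of a block with given pieces. -/
def pair (P Q : Set ℕ) : Set (Bool × ℕ) := {x | x.2 ∈ if x.1 then Q else P}

variable (D : BlockData)

theorem BlockData.base_of_pair {P Q : Set ℕ} (h : D.IsBlockBase (pair P Q)) :
    Base (D.val P) (D.val Q) := h.base

theorem BlockData.base_above {P Q : Set ℕ} (h : D.BlockIndep (pair P Q)) :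
    ∃ p q, Le (D.val P) p ∧ Le (D.val Q) q ∧ Base p q := by
  obtain ⟨B, hB, hs⟩ := h
  exact ⟨_, _, D.mono _ _ (.of_subset (side_mono hs false)),
    D.mono _ _ (.of_subset (side_mono hs true)), hB.base⟩

theorem BlockData.inward_ne_empty {Q : Set ℕ} : ¬ D.IsBlockBase (pair ∅ Q) := fun h => by
  have := D.base_of_pair h
  rw [D.val_empty] at this
  exact (not_lt_zero : ¬ (D.val Q).2 < 0) this.2

theorem BlockData.inward_ne_univ {Q : Set ℕ} : ¬ D.BlockIndep (pair Set.univ Q) := fun h => by
  obtain ⟨⟨sp, p⟩, q, hp, -, hb⟩ := D.base_above h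
  rw [D.val_univ] at hp
  cases sp
  · simp [Le] at hp
  · have : p = 0 := by simpa [Le] using hp
    subst this
    exact (not_lt_zero : ¬ q.2 < 0) hb.2

/-- The state of a ray: pieces and saturated blocks. -/
structure Ray where
  P : ℕ → Set ℕ
  X : ℕ → Prop
  indep : ∀ k, D.BlockIndep (pair (P k) (P (k + 1)))
  sat : ∀ k, X k → D.IsBlockBase (pair (P k) (P (k + 1)))
  both : ∀ k, X k → X (k + 1) → P (k + 1) = ∅
  neither : ∀ k, ¬ X k → ¬ X (k + 1) → P (k + 1) = Set.univ

variable {D}

theorem Ray.alternate (r : Ray D) (k : ℕ) : r.X k ↔ ¬ r.X (k + 1) := by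
  constructor
  · intro h h'
    exact D.inward_ne_empty (r.both k h h' ▸ r.sat (k + 1) h')
  · intro h
    by_contra h'
    exact D.inward_ne_univ (r.neither k h' h ▸ r.indep (k + 1))

/-- A big piece cannot point into an unsaturated block. -/
theorem Ray.not_big (r : Ray D) :
    ∀ α : Ordinal.{0}, ∀ k, ¬ r.X k → D.val (r.P k) ≠ (true, α) := by
  intro α
  induction α using WellFoundedLT.induction with
  | ind α ih =>
    intro k hk hv
    obtain ⟨⟨sp, p⟩, ⟨sq, q⟩, hp, hq, hb⟩ := D.base_above (r.indep k)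
    rw [hv] at hp
    have hnext : r.X (k + 1) := by
      by_contra h
      exact hk ((r.alternate k).2 h)
    have hsat := D.base_of_pair (r.sat (k + 1) hnext)
    have hno : ¬ r.X (k + 2) := (r.alternate (k + 1)).1 hnext
    rcases hw : D.val (r.P (k + 1)) with ⟨sw, w⟩
    rcases hz : D.val (r.P (k + 2)) with ⟨sz, z⟩
    rw [hw] at hq
    rw [hw, show k + 1 + 1 = k + 2 from rfl, hz] at hsat
    cases sp <;> cases sq <;> cases sw <;> cases sz <;> simp [Base, Le] at hp hq hb hsat
    exact ih z (hsat.trans_le (hq.trans (hb.le.trans hp)) ) (k + 2) hno hz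

theorem Ray.first (r : Ray D) : (D.val (r.P 0)).1 = true ↔ r.X 0 := by
  constructor
  · intro h
    by_contra h'
    exact r.not_big (D.val (r.P 0)).2 0 h' (Prod.ext h rfl)
  · intro h
    by_contra h'
    have hb := D.base_of_pair (r.sat 0 h)
    rw [Bool.not_eq_true] at h'
    have h1 : (D.val (r.P 1)).1 = true := by simpa [Base, h'] using hb.1
    exact r.not_big (D.val (r.P 1)).2 1 ((r.alternate 0).1 h) (Prod.ext h1 rfl)

/-- Indexing of the blocks of `N`: cells `2 j` and `2 j + 1` of each ray. -/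
def eN : (Bool × ℕ) × Bool ≃ Bool × ℕ where
  toFun x := (x.1.1, 2 * x.1.2 + x.2.toNat)
  invFun c := ((c.1, c.2 / 2), decide (c.2 % 2 = 1))
  left_inv := by
    rintro ⟨⟨s, j⟩, f⟩
    cases f <;> simp <;> omega
  right_inv := by
    rintro ⟨s, k⟩
    rcases Nat.mod_two_eq_zero_or_one k with h | h <;> simp [h] <;> omega

/-- Indexing of the blocks of `M`: the centre, and cells `2 j + 1` and `2 j + 2` of each ray. -/
def eM : Option (Bool × ℕ) × Bool ≃ Bool × ℕ where
  toFun x := match x.1 with
    | none => (x.2, 0)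
    | some b => (b.1, 2 * b.2 + 1 + x.2.toNat)
  invFun c := match c.2 with
    | 0 => (none, c.1)
    | k + 1 => (some (c.1, k / 2), decide (k % 2 = 1))
  left_inv := by
    rintro ⟨_ | ⟨s, j⟩, f⟩
    · rfl
    · cases f
      · simp
      · show (some (s, (2 * j + 1) / 2), decide ((2 * j + 1) % 2 = 1)) = _
        simp
        omega
  right_inv := by
    rintro ⟨s, _ | k⟩
    · rfl
    · rcases Nat.mod_two_eq_zero_or_one k with h | h <;> simp [h] <;> omega

variable (D)

/-- The first matroid. -/
def BlockData.M : Matroid ((Bool × ℕ) × ℕ) := D.matroid eM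

/-- The second matroid. -/
def BlockData.N : Matroid ((Bool × ℕ) × ℕ) := D.matroid eN

theorem BlockData.no_intersection : ¬ ∃ J JM JN : Set ((Bool × ℕ) × ℕ),
    D.M.Indep J ∧ D.N.Indep J ∧ JM ∪ JN = J ∧ Disjoint JM JN ∧
      D.M.closure JM ∪ D.N.closure JN = Set.univ := by
  rintro ⟨J, JM, JN, hM, hN, rfl, hdis, hcov⟩
  have hJM : D.SumIndep eM JM := hM.subset subset_union_left
  have hJN : D.SumIndep eN JN := hN.subset subset_union_right
  let P : Bool → ℕ → Set ℕ := fun s k => {n | ((s, k), n) ∈ JM ∪ JN}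
  let XM : Option (Bool × ℕ) → Prop := fun i => D.IsBlockBase (slice eM i JM)
  let XN : Bool × ℕ → Prop := fun i => D.IsBlockBase (slice eN i JN)
  have satM : ∀ i, XM i → slice eM i (JM ∪ JN) = slice eM i JM := by
    intro i h
    obtain ⟨B, hB, hs⟩ := hM i
    have := h.eq_of_subset hB (Subset.trans (fun x hx => Or.inl hx) hs)
    exact Subset.antisymm (this ▸ hs) (fun x hx => Or.inl hx)
  have satN : ∀ i, XN i → slice eN i (JM ∪ JN) = slice eN i JN := by
    intro i h
    obtain ⟨B, hB, hs⟩ := hN i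
    have := h.eq_of_subset hB (Subset.trans (fun x hx => Or.inr hx) hs)
    exact Subset.antisymm (this ▸ hs) (fun x hx => Or.inr hx)
  have empty : ∀ i f j g, eM (i, f) = eN (j, g) → XM i → XN j →
      {n | (eM (i, f), n) ∈ JM ∪ JN} = (∅ : Set ℕ) := by
    intro i f j g he hi hj
    refine eq_empty_of_forall_notMem fun n hn => ?_
    have h1 : ((f, n) : Bool × ℕ) ∈ slice eM i JM := satM i hi ▸ hn
    have h2 : ((g, n) : Bool × ℕ) ∈ slice eN j JN := satN j hj ▸
      (show (eN (j, g), n) ∈ JM ∪ JN from he ▸ hn)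
    exact Set.disjoint_left.1 hdis (show (eM (i, f), n) ∈ JM from h1) (he ▸ h2)
  have full : ∀ i f j g, eM (i, f) = eN (j, g) → ¬ XM i → ¬ XN j →
      {n | (eM (i, f), n) ∈ JM ∪ JN} = (Set.univ : Set ℕ) := by
    intro i f j g he hi hj
    refine eq_univ_of_forall fun n => ?_
    rcases (hcov ▸ mem_univ (eM (i, f), n) : _ ∈ D.M.closure JM ∪ D.N.closure JN) with h | h
    · exact Or.inl ((BlockData.mem_closure hJM (y := (f, n)) h).resolve_right hi)
    · rw [he] at h
      exact Or.inr (he ▸ (BlockData.mem_closure hJN (y := (g, n)) h).resolve_right hj)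
  let X : Bool → ℕ → Prop := fun s k =>
    if k % 2 = 0 then XN (s, k / 2) else XM (some (s, k / 2))
  have key : ∀ s k, D.BlockIndep (pair (P s k) (P s (k + 1))) ∧
      (X s k → D.IsBlockBase (pair (P s k) (P s (k + 1)))) := by
    intro s k
    rcases Nat.even_or_odd' k with ⟨j, rfl | rfl⟩
    · have hs : slice eN (s, j) (JM ∪ JN) = pair (P s (2 * j)) (P s (2 * j + 1)) := by
        ext ⟨_ | _, n⟩ <;> rfl
      refine ⟨hs ▸ hN (s, j), fun h => ?_⟩
      have h' : XN (s, j) := by simpa [X] using h
      rw [← hs, satN _ h']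
      exact h'
    · have hs : slice eM (some (s, j)) (JM ∪ JN) = pair (P s (2 * j + 1)) (P s (2 * j + 1 + 1)) := by
        ext ⟨_ | _, n⟩ <;> rfl
      refine ⟨hs ▸ hM (some (s, j)), fun h => ?_⟩
      have h' : XM (some (s, j)) := by
        have e : (2 * j + 1) / 2 = j := by omega
        simpa [X, e] using h
      rw [← hs, satM _ h']
      exact h'
  have hX : ∀ s j, (X s (2 * j) ↔ XN (s, j)) ∧ (X s (2 * j + 1) ↔ XM (some (s, j))) := by
    intro s j
    have e : (2 * j + 1) / 2 = j := by omega
    simp [X, e]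
  have meet : ∀ s k, ∃ i f j g, eM (i, f) = (s, k + 1) ∧ eN (j, g) = (s, k + 1) ∧
      ((X s k ↔ XN j) ∧ (X s (k + 1) ↔ XM i) ∨ (X s k ↔ XM i) ∧ (X s (k + 1) ↔ XN j)) := by
    intro s k
    rcases Nat.even_or_odd' k with ⟨j, rfl | rfl⟩
    · exact ⟨some (s, j), false, (s, j), true, rfl, rfl, Or.inl ⟨(hX s j).1, (hX s j).2⟩⟩
    · exact ⟨some (s, j), true, (s, j + 1), false, rfl, rfl, Or.inr ⟨(hX s j).2, (hX s (j + 1)).1⟩⟩
  let ray : Bool → Ray D := fun s =>
    { P := P s
      X := X s
      indep := fun k => (key s k).1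
      sat := fun k => (key s k).2
      both := by
        intro k h h'
        obtain ⟨i, f, j, g, he, he', hh⟩ := meet s k
        have := empty i f j g (he.trans he'.symm)
        rw [he] at this
        rcases hh with ⟨a, b⟩ | ⟨a, b⟩
        · exact this (b.1 h') (a.1 h)
        · exact this (a.1 h) (b.1 h')
      neither := by
        intro k h h'
        obtain ⟨i, f, j, g, he, he', hh⟩ := meet s k
        have := full i f j g (he.trans he'.symm)
        rw [he] at this
        rcases hh with ⟨a, b⟩ | ⟨a, b⟩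
        · exact this (fun x => h' (b.2 x)) (fun x => h (a.2 x))
        · exact this (fun x => h (a.2 x)) (fun x => h' (b.2 x)) }
  have hcentre : slice eM none (JM ∪ JN) = pair (P false 0) (P true 0) := by
    ext ⟨_ | _, n⟩ <;> rfl
  have hiff : ∀ s, X s 0 ↔ XN (s, 0) := fun s => (hX s 0).1
  have hcell : ∀ s, eM (none, s) = eN ((s, 0), false) := fun _ => rfl
  by_cases hc : XM none
  · have hsmall : ∀ s, (D.val (P s 0)).1 = false := by
      intro s
      by_contra h
      have hs : (ray s).X 0 := (ray s).first.1 (by simpa [ray] using h)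
      have h0 : P s 0 = ∅ := empty none s (s, 0) false (hcell s) hc ((hiff s).1 hs)
      have := (ray s).sat 0 hs
      simp only [ray, h0] at this
      exact D.inward_ne_empty this
    have hb : D.IsBlockBase (pair (P false 0) (P true 0)) := by
      rw [← hcentre, satM _ hc]
      exact hc
    exact (D.base_of_pair hb).1 (by rw [hsmall, hsmall])
  · have hbig : ∀ s, (D.val (P s 0)).1 = true := by
      intro s
      by_contra h
      have hs : ¬ (ray s).X 0 := fun hs => h ((ray s).first.2 hs)
      have h0 : P s 0 = Set.univ :=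
        full none s (s, 0) false (hcell s) hc (fun x => hs ((hiff s).2 x))
      exact h (by rw [h0, D.val_univ])
    obtain ⟨⟨sp, p⟩, ⟨sq, q⟩, hp, hq, hb⟩ := D.base_above (hcentre ▸ hM none)
    have h1 := hbig false
    have h2 := hbig true
    cases sp <;> cases sq <;> simp_all [Le, Base]

end Vale.Agent.P068
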