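import Vale.Agent.P068.Split

/-!
Signed ordinal grades: `S 0 < S 1 < ... < B 1 < B 0`, represented by `Bool × Ordinal`.
-/

namespace Vale.Agent.P068

/-- A sign (`true` is the big sign) and a grade. -/
abbrev Val := Bool × Ordinal.{0}

/-- The linear order on values: small signs increase and big signs decrease with the grade. -/
def Le (a b : Val) : Prop :=
  (a.1 = false ∧ b.1 = true) ∨ (a.1 = false ∧ b.1 = false ∧ a.2 ≤ b.2) ∨
    (a.1 = true ∧ b.1 = true ∧ b.2 ≤ a.2)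

/-- The value pairs (inward, outward) allowed for bases. -/
def Base (p q : Val) : Prop := p.1 ≠ q.1 ∧ q.2 < p.2

/-- The value pairs lying above the allowed ones. -/
def Up (p q : Val) : Prop := p.1 = true ∧ (q.1 = true ∨ p.2 ≤ q.2)

/-- The value pairs lying below the allowed ones. -/
def Down (p q : Val) : Prop := p.1 = false ∧ (q.1 = false ∨ p.2 ≤ q.2)

theorem Le.refl (a : Val) : Le a a := by
  obtain ⟨b, x⟩ := a
  cases b <;> simp [Le]

theorem Le.trans {a b c : Val} (h : Le a b) (h' : Le b c) : Le a c := by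
  obtain ⟨sa, a⟩ := a
  obtain ⟨sb, b⟩ := b
  obtain ⟨sc, c⟩ := c
  cases sa <;> cases sb <;> cases sc <;> simp [Le] at h h' ⊢
  · exact h.trans h'
  · exact h'.trans h

theorem Le.antisymm {a b : Val} (h : Le a b) (h' : Le b a) : a = b := by
  obtain ⟨sa, a⟩ := a
  obtain ⟨sb, b⟩ := b
  cases sa <;> cases sb <;> simp [Le] at h h' ⊢
  · exact le_antisymm h h'
  · exact le_antisymm h' h

theorem Up.not_base {p q : Val} (h : Up p q) : ¬ Base p q := by
  obtain ⟨sp, p⟩ := p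
  obtain ⟨sq, q⟩ := q
  cases sp <;> cases sq <;> simp [Up, Base] at h ⊢
  exact h

theorem Down.not_base {p q : Val} (h : Down p q) : ¬ Base p q := by
  obtain ⟨sp, p⟩ := p
  obtain ⟨sq, q⟩ := q
  cases sp <;> cases sq <;> simp [Down, Base] at h ⊢
  exact h

theorem Down.not_up {p q : Val} (h : Down p q) : ¬ Up p q := by
  simp [Up, h.1]

theorem Up.mono {p q p' q' : Val} (h : Up p q) (hp : Le p p') (hq : Le q q') : Up p' q' := by
  obtain ⟨sp, p⟩ := p
  obtain ⟨sq, q⟩ := q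
  obtain ⟨sp', p'⟩ := p'
  obtain ⟨sq', q'⟩ := q'
  cases sp <;> cases sq <;> cases sp' <;> cases sq' <;> simp [Up, Le] at h hp hq ⊢
  exact hp.trans (h.trans hq)

theorem Down.anti {p q p' q' : Val} (h : Down p' q') (hp : Le p p') (hq : Le q q') :
    Down p q := by
  obtain ⟨sp, p⟩ := p
  obtain ⟨sq, q⟩ := q
  obtain ⟨sp', p'⟩ := p'
  obtain ⟨sq', q'⟩ := q'
  cases sp <;> cases sq <;> cases sp' <;> cases sq' <;> simp [Down, Le] at h hp hq ⊢
  exact hp.trans (h.trans hq)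

/-- Every crossing interval of value pairs contains an allowed pair. -/
theorem exists_base {a₁ a₂ b₁ b₂ : Val} (h₁ : Le a₁ b₁) (h₂ : Le a₂ b₂)
    (ha : ¬ Up a₁ a₂) (hb : ¬ Down b₁ b₂) :
    ∃ p q : Val, Le a₁ p ∧ Le p b₁ ∧ Le a₂ q ∧ Le q b₂ ∧ Base p q := by
  by_cases hA : a₁.1 = true
  · refine ⟨a₁, a₂, .refl _, h₁, .refl _, h₂, ?_⟩
    simpa [Up, Base, hA, not_or] using ha
  rw [Bool.not_eq_true] at hA
  by_cases hB : b₁.1 = false
  · refine ⟨b₁, b₂, h₁, .refl _, h₂, .refl _, ?_⟩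
    simpa [Down, Base, hB, not_or] using hb
  rw [Bool.not_eq_false] at hB
  let d : Ordinal.{0} := Order.succ (max a₁.2 (max a₂.2 b₁.2))
  have hd : max a₁.2 (max a₂.2 b₁.2) < d := Order.lt_succ _
  simp only [max_lt_iff] at hd
  refine ⟨(!a₂.1, d), a₂, ?_, ?_, .refl _, h₂, ?_⟩
  · cases a₂.1 <;> simp [Le, hA, hd.1.le]
  · cases a₂.1 <;> simp [Le, hB, hd.2.2.le]
  · exact ⟨by simp, hd.2.1⟩

end Vale.Agent.P068
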