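import Mathlib

/-!
A packing/covering partition for `(M, N✶)` gives intersection for `(M, N)`.
-/

namespace Vale.Agent.P068

open Set

theorem intersection_of_packingCovering {α : Type*} (M N : Matroid α)
    (hME : M.E = Set.univ) (hNE : N.E = Set.univ)
    (h : ∃ P C S₁ S₂ I₁ I₂ : Set α, P ∪ C = Set.univ ∧ Disjoint P C ∧ Disjoint S₁ S₂ ∧
      S₁ ⊆ P ∧ (M.restrict P).closure S₁ = P ∧
      S₂ ⊆ P ∧ (N.dual.restrict P).closure S₂ = P ∧
      I₁ ⊆ C ∧ (M.dual.restrict C).dual.Indep I₁ ∧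
      I₂ ⊆ C ∧ (N.dual.dual.restrict C).dual.Indep I₂ ∧ I₁ ∪ I₂ = C) :
    ∃ J JM JN : Set α, M.Indep J ∧ N.Indep J ∧ JM ∪ JN = J ∧ Disjoint JM JN ∧
      M.closure JM ∪ N.closure JN = Set.univ := by
  obtain ⟨P, C, S₁, S₂, I₁, I₂, hPC, hd, hS, hS1, hcl1, hS2, hcl2, hI1C, hI1, hI2C, hI2, hI⟩ := h
  have hC : C = Set.univ \ P := by
    rw [← hPC, union_sdiff_left, hd.symm.sdiff_eq_left]
  have hP : P = Set.univ \ C := by
    rw [← hPC, union_sdiff_right, hd.sdiff_eq_left]
  have hsp1 : (M.restrict P).Spanning S₁ := (Matroid.spanning_iff_closure_eq hS1).2 hcl1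
  obtain ⟨B, hB, hBS⟩ := hsp1.exists_isBase_subset
  have hBP : M.IsBasis B P := (Matroid.isBase_restrict_iff (hME ▸ subset_univ P)).1 hB
  rw [Matroid.dual_dual] at hI2
  obtain ⟨T, hT, hI2T⟩ := hI2.exists_isBase_superset
  have hK : N.IsBasis (C \ T) C := by
    have := hT.compl_isBase_dual
    rw [Matroid.dual_dual] at this
    exact (Matroid.isBase_restrict_iff (hNE ▸ subset_univ C)).1 this
  have hTC : C \ T ⊆ I₁ := fun x hx => by
    rcases (hI.symm ▸ hx.1 : x ∈ I₁ ∪ I₂) with h | h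
    · exact h
    · exact absurd (hI2T h) hx.2
  have hMJ : M.Indep (C \ T ∪ B) := by
    have e : (M.dual.restrict C).dual = M.contract P := by
      rw [hC, ← hME, ← M.dual_ground, Matroid.restrict_compl]
      rfl
    rw [e, hBP.contract_indep_iff] at hI1
    exact hI1.1.subset (union_subset_union_left _ hTC)
  have hNJ : N.Indep (B ∪ C \ T) := by
    have e : (N.dual.restrict P).dual = N.contract C := by
      rw [hP, ← hNE, ← N.dual_ground, Matroid.restrict_compl]
      rfl
    have hsp2 : (N.dual.restrict P).Spanning S₂ := (Matroid.spanning_iff_closure_eq hS2).2 hcl2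
    have hco : (N.dual.restrict P).Coindep B := by
      rw [Matroid.coindep_iff_compl_spanning (hBS.trans hS1)]
      exact hsp2.superset (fun x hx => ⟨hS2 hx, fun hxB => disjoint_left.1 hS (hBS hxB) hx⟩)
        sdiff_subset
    rw [Matroid.coindep_def, e, hK.contract_indep_iff] at hco
    exact hco.1
  refine ⟨B ∪ C \ T, B, C \ T, union_comm B (C \ T) ▸ hMJ, hNJ, rfl,
    (hd.mono hBP.subset sdiff_subset), ?_⟩
  rw [← univ_subset_iff, ← hPC]
  exact union_subset_union hBP.subset_closure hK.subset_closure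

end Vale.Agent.P068
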