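import Vale.Agent.P068.Grade
import Vale.Agent.P068.AlmostSets

/-!
The recursion of length continuum producing graded block bases from the splitting hypothesis.
-/

namespace Vale.Agent.P068

open Set Cardinal

/-- A committed value of a cell piece, or a committed representative base of a block. -/
abbrev Item := (Set ℕ × Val) ⊕ Set (Bool × ℕ)

/-- Consistency of a set of commitments. -/
structure Good (A : Set Item) : Prop where
  mono : ∀ P v P' v', Sum.inl (P, v) ∈ A → Sum.inl (P', v') ∈ A → AlmostLE P P' → Le v v'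
  base : ∀ R, Sum.inr R ∈ A → ∃ p q, Sum.inl (side false R, p) ∈ A ∧
    Sum.inl (side true R, q) ∈ A ∧ Base p q
  anti : ∀ R R', Sum.inr R ∈ A → Sum.inr R' ∈ A → AlmostLE R R' → R = R'
  empty : Sum.inl (∅, ((false, 0) : Val)) ∈ A
  univ : Sum.inl (Set.univ, ((true, 0) : Val)) ∈ A

/-- The pieces having a committed value. -/
def dom (A : Set Item) : Set (Set ℕ) := {P | ∃ v, Sum.inl (P, v) ∈ A}

theorem mk_dom_insert_lt {A : Set Item} (h : #(dom A) < continuum) (x : Item) :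
    #(dom (insert x A)) < continuum := by
  have hc : ∀ P, #(insert P (dom A) : Set (Set ℕ)) < continuum := fun P =>
    mk_insert_le.trans_lt
      (add_lt_of_lt aleph0_le_continuum h (one_lt_aleph0.trans aleph0_lt_continuum))
  rcases x with ⟨P, v⟩ | R
  · refine (mk_le_mk_of_subset ?_).trans_lt (hc P)
    rintro Q ⟨w, hw | hw⟩
    · simp only [Sum.inl.injEq, Prod.mk.injEq] at hw
      exact Or.inl hw.1
    · exact Or.inr ⟨w, hw⟩
  · refine (mk_le_mk_of_subset ?_).trans_lt h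
    rintro Q ⟨w, hw | hw⟩
    · exact absurd hw (by simp)
    · exact ⟨w, hw⟩

theorem Good.insert_value {A : Set Item} (hA : Good A) {P : Set ℕ} {v : Val}
    (h : ∀ T w, Sum.inl (T, w) ∈ A →
      (AlmostLE T P → Le w v) ∧ (AlmostLE P T → Le v w)) :
    Good (insert (Sum.inl (P, v)) A) := by
  refine ⟨?_, ?_, ?_, mem_insert_of_mem _ hA.empty, mem_insert_of_mem _ hA.univ⟩
  · intro Q a Q' a' hQ hQ' hle
    simp only [mem_insert_iff, Sum.inl.injEq, Prod.mk.injEq] at hQ hQ'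
    rcases hQ with ⟨rfl, rfl⟩ | hQ <;> rcases hQ' with ⟨rfl, rfl⟩ | hQ'
    · exact .refl _
    · exact (h _ _ hQ').2 hle
    · exact (h _ _ hQ).1 hle
    · exact hA.mono _ _ _ _ hQ hQ' hle
  · intro R hR
    obtain ⟨p, q, hp, hq, hb⟩ := hA.base R (hR.resolve_left (by simp))
    exact ⟨p, q, mem_insert_of_mem _ hp, mem_insert_of_mem _ hq, hb⟩
  · intro R R' hR hR' hle
    exact hA.anti R R' (hR.resolve_left (by simp)) (hR'.resolve_left (by simp)) hle

/-- Every piece can be given a value. -/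
theorem Good.exists_value {A : Set Item} (hA : Good A) (P : Set ℕ) :
    ∃ v, Good (insert (Sum.inl (P, v)) A) := by
  classical
  let G : Set Ordinal.{0} := {g | ∃ T, Sum.inl (T, ((true, g) : Val)) ∈ A ∧ AlmostLE T P}
  by_cases hG : G.Nonempty
  · refine ⟨(true, sInf G), hA.insert_value fun T w hT => ⟨fun hle => ?_, fun hle => ?_⟩⟩
    · obtain ⟨s, g⟩ := w
      cases s
      · exact Or.inl ⟨rfl, rfl⟩
      · exact Or.inr (Or.inr ⟨rfl, rfl, csInf_le' ⟨T, hT, hle⟩⟩)
    · obtain ⟨U, hU, hUP⟩ := csInf_mem hG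
      exact hA.mono _ _ _ _ hU hT (hUP.trans hle)
  · let f : {T : Set ℕ // ∃ g, Sum.inl (T, ((false, g) : Val)) ∈ A ∧ AlmostLE T P} → Ordinal.{0} :=
      fun T => T.2.choose
    refine ⟨(false, ⨆ T, f T), hA.insert_value fun T w hT => ⟨fun hle => ?_, fun hle => ?_⟩⟩
    · obtain ⟨s, g⟩ := w
      cases s
      · let T' : {T : Set ℕ // ∃ g, Sum.inl (T, ((false, g) : Val)) ∈ A ∧ AlmostLE T P} :=
          ⟨T, g, hT, hle⟩
        have hg : Le (false, g) (false, f T') :=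
          hA.mono _ _ _ _ hT T'.2.choose_spec.1 (.refl _)
        have hg' : g ≤ f T' := by simpa [Le] using hg
        exact Or.inr (Or.inl ⟨rfl, rfl, hg'.trans (Ordinal.le_iSup f T')⟩)
      · exact absurd ⟨g, T, hT, hle⟩ hG
    · obtain ⟨s, g⟩ := w
      cases s
      · refine Or.inr (Or.inl ⟨rfl, rfl, Ordinal.iSup_le fun U => ?_⟩)
        have := hA.mono _ _ _ _ U.2.choose_spec.1 hT (U.2.choose_spec.2.trans hle)
        simpa [Le] using this
      · exact Or.inl ⟨rfl, rfl⟩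

/-- A piece of `[I, X]` that no committed piece separates from both ends. -/
theorem exists_generic (hsplit : SplitHyp) {D : Set (Set ℕ)} (hD : #D < continuum)
    {I X : Set ℕ} (hIX : I ⊆ X) :
    ∃ N, I ⊆ N ∧ N ⊆ X ∧ ∀ T ∈ D,
      (AlmostLE T N → AlmostLE T I) ∧ (AlmostLE N T → AlmostLE X T) := by
  let F : Set (Set ℕ) :=
    {S | S.Infinite ∧ S ∈ (fun T => (T \ I) ∩ (X \ I)) '' D ∪ (fun T => (X \ I) \ T) '' D}
  have hF : #F < continuum := by
    refine (mk_le_mk_of_subset fun S hS => hS.2).trans_lt ?_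
    exact (mk_union_le _ _).trans_lt
      (add_lt_of_lt aleph0_le_continuum (mk_image_le.trans_lt hD) (mk_image_le.trans_lt hD))
  obtain ⟨Z, hZ⟩ := hsplit F hF fun S hS => hS.1
  refine ⟨I ∪ (X \ I) ∩ Z, subset_union_left,
    union_subset hIX (inter_subset_left.trans sdiff_subset), fun T hT => ⟨fun h => ?_, fun h => ?_⟩⟩
  · have hfin : ((T \ I) ∩ (X \ I)).Finite := by
      by_contra hinf
      refine (hZ _ ⟨hinf, Or.inl (mem_image_of_mem _ hT)⟩).2 (h.subset ?_)
      rintro x ⟨⟨hxT, hxX⟩, hxZ⟩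
      exact ⟨hxT.1, fun hx => hx.elim hxT.2 fun hx' => hxZ hx'.2⟩
    refine (hfin.union h).subset ?_
    intro x hx
    by_cases hxX : x ∈ X
    · exact Or.inl ⟨hx, hxX, hx.2⟩
    · exact Or.inr ⟨hx.1, fun h' => h'.elim hx.2 fun h'' => hxX h''.1.1⟩
  · have hfin : ((X \ I) \ T).Finite := by
      by_contra hinf
      refine (hZ _ ⟨hinf, Or.inr (mem_image_of_mem _ hT)⟩).1 (h.subset ?_)
      rintro x ⟨⟨hx, hxT⟩, hxZ⟩
      exact ⟨Or.inr ⟨hx, hxZ⟩, hxT⟩
    refine (hfin.union h).subset ?_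
    intro x hx
    by_cases hxI : x ∈ I
    · exact Or.inr ⟨Or.inl hxI, hx.2⟩
    · exact Or.inl ⟨⟨hx.1, hxI⟩, hx.2⟩

/-- What a crossing interval requires. -/
def Bridged (A : Set Item) (I X : Set (Bool × ℕ)) : Prop :=
  ∃ R, Sum.inr R ∈ A ∧ (AlmostLE R I ∨ AlmostLE X R ∨ (AlmostLE I R ∧ AlmostLE R X))

/-- A crossing interval can be bridged. -/
theorem Good.exists_bridge (hsplit : SplitHyp) {A : Set Item} (hA : Good A)
    (hsmall : #(dom A) < continuum) {I X : Set (Bool × ℕ)} (hIX : I ⊆ X) {a₁ a₂ b₁ b₂ : Val}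
    (ha₁ : Sum.inl (side false I, a₁) ∈ A) (ha₂ : Sum.inl (side true I, a₂) ∈ A)
    (hb₁ : Sum.inl (side false X, b₁) ∈ A) (hb₂ : Sum.inl (side true X, b₂) ∈ A)
    (hup : ¬ Up a₁ a₂) (hdown : ¬ Down b₁ b₂) :
    ∃ A', A ⊆ A' ∧ (A' \ A).Finite ∧ Good A' ∧ Bridged A' I X := by
  by_cases hdone : ∃ R, Sum.inr R ∈ A ∧ (AlmostLE R I ∨ AlmostLE X R)
  · obtain ⟨R, hR, h⟩ := hdone
    exact ⟨A, Subset.rfl, by simp, hA, R, hR, h.elim Or.inl fun h => Or.inr (Or.inl h)⟩
  obtain ⟨p, q, h1p, hp1, h2q, hq2, hbase⟩ :=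
    exists_base (hA.mono _ _ _ _ ha₁ hb₁ (.of_subset (side_mono hIX false)))
      (hA.mono _ _ _ _ ha₂ hb₂ (.of_subset (side_mono hIX true))) hup hdown
  obtain ⟨N₁, hI1, hX1, hN1⟩ := exists_generic hsplit hsmall (side_mono hIX false)
  have hA₁ : Good (insert (Sum.inl (N₁, p)) A) :=
    hA.insert_value fun T w hT =>
      ⟨fun h => (hA.mono _ _ _ _ hT ha₁ ((hN1 T ⟨w, hT⟩).1 h)).trans h1p,
        fun h => hp1.trans (hA.mono _ _ _ _ hb₁ hT ((hN1 T ⟨w, hT⟩).2 h))⟩
  set A₁ := insert (Sum.inl (N₁, p)) A with hA₁def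
  obtain ⟨N₂, hI2, hX2, hN2⟩ :=
    exists_generic hsplit (mk_dom_insert_lt hsmall (Sum.inl (N₁, p))) (side_mono hIX true)
  have hA₂ : Good (insert (Sum.inl (N₂, q)) A₁) :=
    hA₁.insert_value fun T w hT =>
      ⟨fun h => (hA₁.mono _ _ _ _ hT (mem_insert_of_mem _ ha₂) ((hN2 T ⟨w, hT⟩).1 h)).trans h2q,
        fun h => hq2.trans (hA₁.mono _ _ _ _ (mem_insert_of_mem _ hb₂) hT ((hN2 T ⟨w, hT⟩).2 h))⟩
  set A₂ := insert (Sum.inl (N₂, q)) A₁ with hA₂def
  let N : Set (Bool × ℕ) := {x | x.2 ∈ if x.1 then N₂ else N₁}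
  have hNf : side false N = N₁ := rfl
  have hNt : side true N = N₂ := rfl
  have hIN : I ⊆ N := by
    rintro ⟨_ | _, n⟩ hn
    · exact hI1 hn
    · exact hI2 hn
  have hNX : N ⊆ X := by
    rintro ⟨_ | _, n⟩ hn
    · exact hX1 hn
    · exact hX2 hn
  have key : ∀ R, Sum.inr R ∈ A →
      (AlmostLE R N → AlmostLE R I) ∧ (AlmostLE N R → AlmostLE X R) := by
    intro R hR
    obtain ⟨r₁, r₂, hr₁, hr₂, -⟩ := hA.base R hR
    simp only [almostLE_iff_side, Bool.forall_bool, hNf, hNt]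
    have e1 := hN1 _ ⟨r₁, hr₁⟩
    have e2 := hN2 _ ⟨r₂, mem_insert_of_mem _ hr₂⟩
    exact ⟨fun h => ⟨e1.1 h.1, e2.1 h.2⟩, fun h => ⟨e1.2 h.1, e2.2 h.2⟩⟩
  have hinr : ∀ R, Sum.inr R ∈ A₂ → Sum.inr R ∈ A := fun R hR => by
    simpa [hA₂def, hA₁def] using hR
  refine ⟨insert (Sum.inr N) A₂, ?_, ?_, ⟨?_, ?_, ?_, mem_insert_of_mem _ hA₂.empty,
    mem_insert_of_mem _ hA₂.univ⟩, N, mem_insert _ _,
    Or.inr (Or.inr ⟨.of_subset hIN, .of_subset hNX⟩)⟩
  · exact (subset_insert _ _).trans ((subset_insert _ _).trans (subset_insert _ _))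
  · refine (toFinite {Sum.inl (N₁, p), Sum.inl (N₂, q), Sum.inr N}).subset ?_
    intro x hx
    simp only [hA₂def, hA₁def, mem_sdiff, mem_insert_iff, mem_singleton_iff] at hx ⊢
    tauto
  · intro P v P' v' h h'
    exact hA₂.mono P v P' v' (h.resolve_left (by simp)) (h'.resolve_left (by simp))
  · intro R hR
    rcases hR with hR | hR
    · obtain rfl : R = N := by simpa using hR
      exact ⟨p, q, mem_insert_of_mem _ (mem_insert_of_mem _ (mem_insert _ _)),
        mem_insert_of_mem _ (mem_insert _ _), hbase⟩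
    · obtain ⟨r₁, r₂, h₁, h₂, hb⟩ := hA₂.base R hR
      exact ⟨r₁, r₂, mem_insert_of_mem _ h₁, mem_insert_of_mem _ h₂, hb⟩
  · intro R R' hR hR' hle
    push Not at hdone
    rcases hR with hR | hR <;> rcases hR' with hR' | hR'
    · simp_all
    · obtain rfl : R = N := by simpa using hR
      exact absurd ((key R' (hinr _ hR')).2 hle) (hdone R' (hinr _ hR')).2
    · obtain rfl : R' = N := by simpa using hR'
      exact absurd ((key R (hinr _ hR)).1 hle) (hdone R (hinr _ hR)).1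
    · exact hA₂.anti R R' hR hR' hle

/-- The endpoints are valued and, if nested, the interval is settled. -/
def Done (A : Set Item) (t : Set (Bool × ℕ) × Set (Bool × ℕ)) : Prop :=
  (∀ f, side f t.1 ∈ dom A ∧ side f t.2 ∈ dom A) ∧
    (t.1 ⊆ t.2 → (∃ p q, Sum.inl (side false t.1, p) ∈ A ∧ Sum.inl (side true t.1, q) ∈ A ∧
      Up p q) ∨ Bridged A t.1 t.2)

theorem Done.mono {A B : Set Item} {t : Set (Bool × ℕ) × Set (Bool × ℕ)} (h : Done A t)
    (hAB : A ⊆ B) : Done B t := by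
  refine ⟨fun f => ⟨?_, ?_⟩, fun hs => ?_⟩
  · obtain ⟨v, hv⟩ := (h.1 f).1
    exact ⟨v, hAB hv⟩
  · obtain ⟨v, hv⟩ := (h.1 f).2
    exact ⟨v, hAB hv⟩
  · rcases h.2 hs with ⟨p, q, hp, hq, hu⟩ | ⟨R, hR, hr⟩
    · exact Or.inl ⟨p, q, hAB hp, hAB hq, hu⟩
    · exact Or.inr ⟨R, hAB hR, hr⟩

/-- One step of the recursion. -/
theorem Good.exists_step (hsplit : SplitHyp) {A : Set Item} (hA : Good A)
    (hsmall : #(dom A) < continuum) (t : Set (Bool × ℕ) × Set (Bool × ℕ)) :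
    ∃ D : Set Item, D.Finite ∧ Good (A ∪ D) ∧ Done (A ∪ D) t := by
  obtain ⟨I, X⟩ := t
  obtain ⟨a₁, hg1⟩ := hA.exists_value (side false I)
  have hs1 := mk_dom_insert_lt hsmall (Sum.inl (side false I, a₁))
  obtain ⟨a₂, hg2⟩ := hg1.exists_value (side true I)
  have hs2 := mk_dom_insert_lt hs1 (Sum.inl (side true I, a₂))
  obtain ⟨b₁, hg3⟩ := hg2.exists_value (side false X)
  have hs3 := mk_dom_insert_lt hs2 (Sum.inl (side false X, b₁))
  obtain ⟨b₂, hg4⟩ := hg3.exists_value (side true X)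
  have hs4 := mk_dom_insert_lt hs3 (Sum.inl (side true X, b₂))
  set B := insert (Sum.inl (side true X, b₂)) (insert (Sum.inl (side false X, b₁))
    (insert (Sum.inl (side true I, a₂)) (insert (Sum.inl (side false I, a₁)) A))) with hB
  have hAB : A ⊆ B := fun x hx => by simp [hB, hx]
  have hfin : (B \ A).Finite := by
    refine (toFinite {Sum.inl (side true X, b₂), Sum.inl (side false X, b₁),
      Sum.inl (side true I, a₂), Sum.inl (side false I, a₁)}).subset ?_
    intro x hx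
    simp only [hB, mem_sdiff, mem_insert_iff, mem_singleton_iff] at hx ⊢
    tauto
  have ha₁ : Sum.inl (side false I, a₁) ∈ B := by simp [hB]
  have ha₂ : Sum.inl (side true I, a₂) ∈ B := by simp [hB]
  have hb₁ : Sum.inl (side false X, b₁) ∈ B := by simp [hB]
  have hb₂ : Sum.inl (side true X, b₂) ∈ B := by simp [hB]
  suffices h : ∃ A', B ⊆ A' ∧ (A' \ B).Finite ∧ Good A' ∧ Done A' (I, X) by
    obtain ⟨A', hBA, hf, hg, hd⟩ := h
    refine ⟨A' \ A, (hf.union hfin).subset ?_, ?_, ?_⟩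
    · intro x hx
      by_cases hxB : x ∈ B
      · exact Or.inr ⟨hxB, hx.2⟩
      · exact Or.inl ⟨hx.1, hxB⟩
    all_goals rw [union_sdiff_cancel (hAB.trans hBA)]
    · exact hg
    · exact hd
  have hdom : ∀ A', B ⊆ A' → ∀ f, side f I ∈ dom A' ∧ side f X ∈ dom A' := fun A' hs f => by
    cases f
    · exact ⟨⟨a₁, hs ha₁⟩, ⟨b₁, hs hb₁⟩⟩
    · exact ⟨⟨a₂, hs ha₂⟩, ⟨b₂, hs hb₂⟩⟩
  by_cases hIX : I ⊆ X
  swap
  · exact ⟨B, Subset.rfl, by simp, hg4, hdom B Subset.rfl, fun h => absurd h hIX⟩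
  by_cases hup : Up a₁ a₂
  · exact ⟨B, Subset.rfl, by simp, hg4, hdom B Subset.rfl,
      fun _ => Or.inl ⟨a₁, a₂, ha₁, ha₂, hup⟩⟩
  by_cases hdown : Down b₁ b₂
  · have hu : ∀ f, Sum.inl (side f (Set.univ : Set (Bool × ℕ)), ((true, 0) : Val)) ∈ B := fun f =>
      hg4.univ
    obtain ⟨A', hBA, hf, hg, R, hR, hr⟩ :=
      hg4.exists_bridge hsplit hs4 (subset_univ X) hb₁ hb₂ (hu false) (hu true) hdown.not_up
        (by simp [Down])
    refine ⟨A', hBA, hf, hg, hdom A' hBA, fun _ => Or.inr ⟨R, hR, Or.inr (Or.inl ?_)⟩⟩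
    obtain ⟨r₁, r₂, hr₁, hr₂, hb⟩ := hg.base R hR
    rcases hr with h | h | h
    · rw [almostLE_iff_side] at h
      exact absurd hb (hdown.anti (hg.mono _ _ _ _ hr₁ (hBA hb₁) (h false))
        (hg.mono _ _ _ _ hr₂ (hBA hb₂) (h true))).not_base
    · exact (AlmostLE.of_subset (subset_univ X)).trans h
    · exact h.1
  · obtain ⟨A', hBA, hf, hg, hbr⟩ :=
      hg4.exists_bridge hsplit hs4 hIX ha₁ ha₂ hb₁ hb₂ hup hdown
    exact ⟨A', hBA, hf, hg, hdom A' hBA, fun _ => Or.inr hbr⟩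

/-- The graded structure of a block. -/
structure BlockData where
  val : Set ℕ → Val
  reps : Set (Set (Bool × ℕ))
  mono : ∀ P Q, AlmostLE P Q → Le (val P) (val Q)
  val_empty : val ∅ = (false, 0)
  val_univ : val Set.univ = (true, 0)
  base : ∀ R ∈ reps, Base (val (side false R)) (val (side true R))
  anti : ∀ R ∈ reps, ∀ R' ∈ reps, AlmostLE R R' → R = R'
  bridge : ∀ I X, I ⊆ X → Up (val (side false I)) (val (side true I)) ∨
    ∃ R ∈ reps, AlmostLE R I ∨ AlmostLE X R ∨ (AlmostLE I R ∧ AlmostLE R X)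

/-- From the limit of the recursion to the graded structure. -/
theorem Good.blockData {A : Set Item} (hA : Good A) (hdone : ∀ t, Done A t) :
    Nonempty BlockData := by
  have hall : ∀ P : Set ℕ, ∃ v, Sum.inl (P, v) ∈ A := fun P =>
    ((hdone ({x | x.2 ∈ P}, {x | x.2 ∈ P})).1 false).1
  choose val hval using hall
  have huniq : ∀ {P v}, Sum.inl (P, v) ∈ A → v = val P := fun h =>
    (hA.mono _ _ _ _ h (hval _) (.refl _)).antisymm (hA.mono _ _ _ _ (hval _) h (.refl _))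
  refine ⟨⟨val, {R | Sum.inr R ∈ A}, fun P Q h => hA.mono _ _ _ _ (hval P) (hval Q) h,
    (huniq hA.empty).symm, (huniq hA.univ).symm, fun R hR => ?_, fun R hR R' hR' h =>
    hA.anti R R' hR hR' h, fun I X hIX => ?_⟩⟩
  · obtain ⟨p, q, hp, hq, hb⟩ := hA.base R hR
    rwa [huniq hp, huniq hq] at hb
  · rcases (hdone (I, X)).2 hIX with ⟨p, q, hp, hq, hu⟩ | ⟨R, hR, h⟩
    · left
      rwa [huniq hp, huniq hq] at hu
    · exact Or.inr ⟨R, hR, h⟩

/-- The splitting hypothesis yields a graded block structure. -/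
theorem exists_blockData (hsplit : SplitHyp) : Nonempty BlockData := by
  classical
  let ι := continuum.{0}.ord.ToType
  have hι : #ι = #(Set (Bool × ℕ) × Set (Bool × ℕ)) := by
    rw [mk_ord_toType, mk_prod, mk_set, mk_eq_aleph0 (Bool × ℕ), two_power_aleph0,
      lift_id, continuum_mul_self]
  obtain ⟨e⟩ := Cardinal.eq.1 hι
  let step : ι → Set Item → Set Item := fun i S =>
    if h : Good S ∧ #(dom S) < continuum then (h.1.exists_step hsplit h.2 (e i)).choose else ∅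
  let base : Set Item := {Sum.inl (∅, ((false, 0) : Val)), Sum.inl (Set.univ, ((true, 0) : Val))}
  let F : ι → Set Item := WellFoundedLT.fix fun i ih => step i (base ∪ ⋃ j, ⋃ h : j < i, ih j h)
  let S : ι → Set Item := fun i => base ∪ ⋃ j, ⋃ _ : j < i, F j
  have hF : ∀ i, F i = step i (S i) := fun i => WellFoundedLT.fix_eq _ i
  clear_value F
  have hbase : Good base := by
    have hfin : ¬ AlmostLE (Set.univ : Set ℕ) ∅ := by simp [AlmostLE, infinite_univ]
    refine ⟨?_, ?_, ?_, by simp [base], by simp [base]⟩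
    · intro P v P' v' h h' hle
      simp only [base, mem_insert_iff, mem_singleton_iff, Sum.inl.injEq, Prod.mk.injEq] at h h'
      rcases h with ⟨rfl, rfl⟩ | ⟨rfl, rfl⟩ <;> rcases h' with ⟨rfl, rfl⟩ | ⟨rfl, rfl⟩
      · exact .refl _
      · exact Or.inl ⟨rfl, rfl⟩
      · exact absurd hle hfin
      · exact .refl _
    · intro R hR
      simp [base] at hR
    · intro R R' hR
      simp [base] at hR
  have chain : ∀ (J : Set ι), (∀ j ∈ J, Good (S j ∪ F j)) → (∀ j ∈ J, ∀ k < j, k ∈ J) →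
      Good (base ∪ ⋃ j ∈ J, F j) := by
    intro J hJ hdown
    have hsub : ∀ j ∈ J, S j ∪ F j ⊆ base ∪ ⋃ k ∈ J, F k := by
      intro j hj x hx
      simp only [S, mem_union, mem_iUnion] at hx ⊢
      rcases hx with (hx | ⟨k, hk, hx⟩) | hx
      · exact Or.inl hx
      · exact Or.inr ⟨k, hdown j hj k hk, hx⟩
      · exact Or.inr ⟨j, hj, hx⟩
    have two : ∀ x y, x ∈ base ∪ ⋃ k ∈ J, F k → y ∈ base ∪ ⋃ k ∈ J, F k →
        ∃ G, Good G ∧ x ∈ G ∧ y ∈ G ∧ G ⊆ base ∪ ⋃ k ∈ J, F k := by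
      have mem : ∀ j ∈ J, ∀ k ≤ j, F k ⊆ S j ∪ F j := fun j _ k hk x hx => by
        rcases hk.eq_or_lt with rfl | hk
        · exact Or.inr hx
        · exact Or.inl (Or.inr (mem_iUnion₂.2 ⟨k, hk, hx⟩))
      intro x y hx hy
      simp only [mem_union, mem_iUnion] at hx hy
      rcases hx with hx | ⟨i, hi, hx⟩ <;> rcases hy with hy | ⟨j, hj, hy⟩
      · exact ⟨base, hbase, hx, hy, subset_union_left⟩
      · exact ⟨_, hJ j hj, Or.inl (Or.inl hx), Or.inr hy, hsub j hj⟩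
      · exact ⟨_, hJ i hi, Or.inr hx, Or.inl (Or.inl hy), hsub i hi⟩
      · rcases le_total i j with h | h
        · exact ⟨_, hJ j hj, mem j hj i h hx, Or.inr hy, hsub j hj⟩
        · exact ⟨_, hJ i hi, Or.inr hx, mem i hi j h hy, hsub i hi⟩
    refine ⟨?_, ?_, ?_, Or.inl hbase.empty, Or.inl hbase.univ⟩
    · intro P v P' v' h h'
      obtain ⟨G, hG, hx, hy, -⟩ := two _ _ h h'
      exact hG.mono P v P' v' hx hy
    · intro R hR
      obtain ⟨G, hG, hx, -, hGsub⟩ := two _ _ hR hR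
      obtain ⟨p, q, hp, hq, hb⟩ := hG.base R hx
      exact ⟨p, q, hGsub hp, hGsub hq, hb⟩
    · intro R R' h h'
      obtain ⟨G, hG, hx, hy, -⟩ := two _ _ h h'
      exact hG.anti R R' hx hy
  have main : ∀ i, Good (S i ∪ F i) ∧ (F i).Finite ∧ Done (S i ∪ F i) (e i) := by
    intro i
    induction i using WellFoundedLT.induction with
    | ind i ih =>
      have hg : Good (S i) := by
        have := chain (Iio i) (fun j hj => (ih j hj).1) (fun j hj k hk => hk.trans hj)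
        simpa [S] using this
      have hs : #(dom (S i)) < continuum := by
        have hsub : dom (S i) ⊆ dom base ∪ ⋃ j : Iio i, dom (F j) := by
          rintro P ⟨v, hv | hv⟩
          · exact Or.inl ⟨v, hv⟩
          · simp only [mem_iUnion] at hv
            obtain ⟨j, hj, hv⟩ := hv
            exact Or.inr (mem_iUnion.2 ⟨⟨j, hj⟩, v, hv⟩)
        have hdomfin : ∀ G : Set Item, G.Finite → #(dom G) ≤ ℵ₀ := by
          intro G hG
          have : dom G ⊆ (fun x : Item => x.elim Prod.fst fun _ => ∅) '' G := by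
            rintro P ⟨v, hv⟩
            exact ⟨_, hv, rfl⟩
          exact (((hG.image _).subset this).countable).le_aleph0
        refine (mk_le_mk_of_subset hsub).trans_lt ((mk_union_le _ _).trans_lt ?_)
        refine add_lt_of_lt aleph0_le_continuum
          ((hdomfin base (toFinite _)).trans_lt aleph0_lt_continuum) ?_
        refine (mk_iUnion_le _).trans_lt ?_
        refine mul_lt_of_lt aleph0_le_continuum (mk_Iio_toType_ord_lt i) ?_
        have hj : ∀ j : Iio i, #(dom (F j.1)) ≤ ℵ₀ := fun j => hdomfin (F j.1) (ih j.1 j.2).2.1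
        exact (ciSup_le' hj).trans_lt aleph0_lt_continuum
      have hspec := (hg.exists_step hsplit hs (e i)).choose_spec
      rw [hF i]
      simp only [step, hg, hs, and_self, ↓reduceDIte]
      exact ⟨hspec.2.1, hspec.1, hspec.2.2⟩
  have hall : Good (base ∪ ⋃ j ∈ (Set.univ : Set ι), F j) :=
    chain _ (fun j _ => (main j).1) fun _ _ _ _ => trivial
  refine hall.blockData fun t => ?_
  obtain ⟨i, rfl⟩ := e.surjective t
  refine (main i).2.2.mono ?_
  intro x hx
  simp only [S, mem_union, mem_iUnion] at hx ⊢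
  rcases hx with (hx | ⟨k, _, hx⟩) | hx
  · exact Or.inl hx
  · exact Or.inr ⟨k, trivial, hx⟩
  · exact Or.inr ⟨i, trivial, hx⟩

end Vale.Agent.P068
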