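import Mathlib

/-!
The splitting hypothesis for the conditional counterexample to infinite matroid intersection,
and its proof from the continuum hypothesis.
-/

namespace Vale.Agent.P068

open Set Cardinal

/-- Every family of fewer than continuum many infinite sets of naturals is split by one set. -/
def SplitHyp : Prop :=
  ∀ F : Set (Set ℕ), #F < continuum → (∀ S ∈ F, S.Infinite) →
    ∃ Z : Set ℕ, ∀ S ∈ F, (S ∩ Z).Infinite ∧ (S \ Z).Infinite

/-- A countable family of infinite sets is split by one set. -/
theorem split_countable (S : ℕ → Set ℕ) (hS : ∀ n, (S n).Infinite) :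
    ∃ Z : Set ℕ, ∀ n, (S n ∩ Z).Infinite ∧ (S n \ Z).Infinite := by
  classical
  have hex : ∀ i prev : ℕ, ∃ m ∈ S (Nat.unpair (i / 2)).1, prev < m := fun i prev =>
    ((hS _).exists_gt prev)
  choose g hg hlt using hex
  let a : ℕ → ℕ := fun i => Nat.rec (g 0 0) (fun j aj => g (j + 1) aj) i
  have hmono : StrictMono a := strictMono_nat_of_lt_succ fun j => hlt (j + 1) (a j)
  have hmem : ∀ i, a i ∈ S (Nat.unpair (i / 2)).1 := by
    intro i
    cases i with
    | zero => exact hg 0 0
    | succ j => exact hg (j + 1) (a j)
  clear_value a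
  refine ⟨{m | ∃ k, a (2 * k) = m}, fun n => ⟨?_, ?_⟩⟩
  · refine Set.infinite_of_injective_forall_mem (f := fun k => a (2 * Nat.pair n k)) ?_ ?_
    · intro k l h
      have := hmono.injective h
      have h2 : Nat.pair n k = Nat.pair n l := by omega
      simpa using h2
    · intro k
      refine ⟨?_, _, rfl⟩
      have := hmem (2 * Nat.pair n k)
      simpa using this
  · refine Set.infinite_of_injective_forall_mem (f := fun k => a (2 * Nat.pair n k + 1)) ?_ ?_
    · intro k l h
      have := hmono.injective h
      have h2 : Nat.pair n k = Nat.pair n l := by omega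
      simpa using h2
    · intro k
      refine ⟨?_, ?_⟩
      · have := hmem (2 * Nat.pair n k + 1)
        have h2 : (2 * Nat.pair n k + 1) / 2 = Nat.pair n k := by omega
        rw [h2] at this
        simpa using this
      · rintro ⟨j, hj⟩
        have := hmono.injective hj
        omega

/-- The continuum hypothesis implies the splitting hypothesis. -/
theorem splitHyp_of_ch (h : continuum.{0} = ℵ₁) : SplitHyp := by
  intro F hF hinf
  have hc : F.Countable := by
    rw [← Cardinal.le_aleph0_iff_set_countable]
    rw [h, ← Cardinal.succ_aleph0] at hF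
    exact Order.lt_succ_iff.1 hF
  rcases F.eq_empty_or_nonempty with rfl | hne
  · exact ⟨∅, by simp⟩
  · obtain ⟨S, rfl⟩ := hc.exists_eq_range hne
    obtain ⟨Z, hZ⟩ := split_countable S fun n => hinf _ ⟨n, rfl⟩
    exact ⟨Z, by rintro _ ⟨n, rfl⟩; exact hZ n⟩

end Vale.Agent.P068
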